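import Vale.Agent.P269L.D.Pol
import Vale.Agent.P269L.R.Sat
import Vale.Agent.P269L.Tx

/-!
# The normal cone of the text is the special fibre of the deformation to the normal cone
-/

open Filter Topology Set Function
open Vale.Agent.P298.H941 Vale.Agent.P277Z.Oka Vale.Agent.P269L.R Vale.Agent.P269L.L
open Vale.Agent.P269L.Tx Vale.Agent.P269.Holo Vale.Agent.P287Q

set_option linter.unusedSectionVars false

noncomputable section

namespace Vale.Agent.P269L.D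

theorem ev_closure {X Y : Type*} [TopologicalSpace X] [TopologicalSpace Y] {φ : X → Y} {A : Set X}
    {A' : Set Y} {a : X} (hφ : ∀ᶠ z in 𝓝 a, ContinuousAt φ z)
    (h : ∀ᶠ z in 𝓝 a, z ∈ A → φ z ∈ A') : ∀ᶠ z in 𝓝 a, z ∈ closure A → φ z ∈ closure A' := by
  filter_upwards [hφ, h.eventually_nhds] with z h1 h2 h3
  exact mem_closure_of_frequently_of_tendsto
    (((mem_closure_iff_frequently.1 h3).and_eventually h2).mono fun _ b => b.2 b.1) h1

section gen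

variable {W E : Type} [NormedAddCommGroup W] [NormedSpace ℂ W] [NormedAddCommGroup E]
  [NormedSpace ℂ E]

/-- the deformation to the normal cone -/
def BM (M : Set (W × E)) : Set ((W × E) × ℂ) :=
  closure {b | b.2 ≠ 0 ∧ (b.1.1, b.2 • b.1.2) ∈ M}

theorem dense_BM {M : Set (W × E)} {z : (W × E) × ℂ} (h : z ∈ BM M) :
    z ∈ closure (BM M \ {z | z.2 = 0}) :=
  closure_mono (s := {b : (W × E) × ℂ | b.2 ≠ 0 ∧ (b.1.1, b.2 • b.1.2) ∈ M})
    (t := BM M \ {z | z.2 = 0}) (fun _ k => ⟨subset_closure k, k.1⟩) h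

/-- the rescaling -/
def sc (b : (W × E) × ℂ) : W × E := (b.1.1, b.2 • b.1.2)

theorem ana_sc (b : (W × E) × ℂ) : AnalyticAt ℂ sc b :=
  (analyticAt_fst.comp analyticAt_fst).prod
    (analyticAt_snd.fun_smul (analyticAt_snd.comp analyticAt_fst))

theorem sc_zero (z : W × E) : sc (z, 0) = (z.1, 0) := Prod.ext rfl (zero_smul _ _)

theorem form_ana {n : ℕ} {x : W} {q : W × E → ℂ} (h : Form n x q) (ξ : E) :
    AnalyticAt ℂ q (x, ξ) := by
  have h1 : Tendsto (fun t : ℂ => (x, t • ξ)) (𝓝 0) (𝓝 (x, 0)) :=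
    (by fun_prop : Continuous fun t : ℂ => (x, t • ξ)).tendsto' _ _ (by rw [zero_smul])
  obtain ⟨t, h2, h3⟩ := (((h1.eventually h.1.eventually_analyticAt).filter_mono
    (nhdsWithin_le_nhds (s := {0}ᶜ))).and self_mem_nhdsWithin).exists
  have h4 : AnalyticAt ℂ (fun z : W × E => (t ^ n)⁻¹ * q (z.1, t • z.2)) (x, ξ) :=
    analyticAt_const.fun_mul (h2.comp_of_eq
      (analyticAt_fst.prod (analyticAt_const.fun_smul analyticAt_snd)) rfl)
  exact h4.congr (.of_forall fun z => by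
    simp only [h.2, inv_mul_cancel_left₀ (pow_ne_zero n h3)])

variable {M : Set (W × E)} {y : W × E} {f : W × E → ℂ}

/-- an initial form extends to a function vanishing on the deformation -/
theorem ini_van (h : f ∈ Ini M y) : ∃ G, AnalyticAt ℂ G (y, 0) ∧ Van (y, 0) (BM M) G ∧
    ∀ᶠ z in 𝓝 y, G (z, 0) = f z := by
  obtain ⟨n, q, q', h1, h2, h3, h4⟩ := h
  have e : (sc (y, 0), y.2) = ((y.1, 0), y.2) := by rw [sc_zero]
  have hu : AnalyticAt ℂ (fun b : (W × E) × ℂ => (sc b, b.1.2)) (y, 0) :=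
    (ana_sc _).prod (analyticAt_snd.comp analyticAt_fst)
  have hG := ((form_ana h1 y.2).comp_of_eq hu e).fun_sub
    (analyticAt_snd.fun_mul ((form_ana h2 y.2).comp_of_eq hu e))
  refine ⟨_, hG, van_closure hG ?_, h4.mono fun z hz => by simp [hz, sc_zero]⟩
  filter_upwards [((ana_sc (y, 0)).continuousAt.tendsto.mono_right
    (congrArg 𝓝 (sc_zero y)).le).eventually (eventually_nhdsWithin_iff.1 h3)] with b k1 k2
  have k3 := (h1.2 _ _ _).symm.trans ((k1 k2.2).trans (h2.2 _ _ _))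
  rw [pow_succ, mul_assoc] at k3
  exact sub_eq_zero.2 (mul_left_cancel₀ (pow_ne_zero n k2.1) k3)

theorem ini_ana (h : f ∈ Ini M y) : AnalyticAt ℂ f y :=
  let ⟨_, a, _, c⟩ := ini_van h
  (a.comp_of_eq (ana_inc y) rfl).congr c

theorem ini_of_van {g : W × E → ℂ} (hg : AnalyticAt ℂ g (y.1, 0))
    (h : ∀ᶠ z in 𝓝[M] (y.1, 0), g z = 0) (e : f =ᶠ[𝓝 y] fun z => g (z.1, 0)) : f ∈ Ini M y :=
  ⟨0, fun z => g z.1, fun _ => 0, ⟨hg.comp_of_eq analyticAt_fst rfl, fun _ _ _ => by simp⟩,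
    ⟨analyticAt_const, fun _ _ _ => (mul_zero _).symm⟩, h, e⟩

end gen

variable {W E ι : Type} [NormedAddCommGroup W] [NormedSpace ℂ W] [NormedAddCommGroup E]
  [NormedSpace ℂ E] [Fintype ι] {M : Set (W × (ι → ℂ))} {x : W}

namespace Par

variable {p : E → W × (ι → ℂ)} {q : W × (ι → ℂ) → E} {e : E} (h : Par M (x, 0) p q e) (ξ : ι → ℂ)
include h

omit ξ in
theorem an_s (j : ι) : AnalyticAt ℂ (fun z => (p z).2 j) e := h.an_p (Rf.ana_co W j _)

theorem an_th : AnalyticAt ℂ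
    (fun b : (E × (ι → ℂ)) × ℂ => (((p b.1.1).1, b.1.2), b.2)) ((e, ξ), 0) :=
  (((h.an_p analyticAt_fst).comp_of_eq (analyticAt_fst.comp analyticAt_fst) rfl).prod
    (analyticAt_snd.comp analyticAt_fst)).prod analyticAt_snd

theorem an_ps : AnalyticAt ℂ
    (fun b : (W × (ι → ℂ)) × ℂ => ((q (sc b), b.1.2), b.2)) ((x, ξ), 0) :=
  ((h.qa.comp_of_eq (ana_sc _) (sc_zero _)).prod
    (analyticAt_snd.comp analyticAt_fst)).prod analyticAt_snd

theorem th_mem [CompleteSpace W] : ∀ᶠ b in 𝓝 (((e, ξ), 0) : (E × (ι → ℂ)) × ℂ),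
    b ∈ Bs univ (fun j z => (p z).2 j) → (((p b.1.1).1, b.1.2), b.2) ∈ BM M :=
  ev_closure ((h.an_th ξ).eventually_analyticAt.mono fun _ b => b.continuousAt)
    (((tendsto_base _).eventually h.ev_mem).mono fun b k1 k2 => ⟨k2.2.1, by
      rwa [show b.2 • b.1.2 = (p b.1.1).2 from funext k2.2.2]⟩)

theorem ev_pq : ∀ᶠ b in 𝓝 (((x, ξ), 0) : (W × (ι → ℂ)) × ℂ), sc b ∈ M → p (q (sc b)) = sc b :=
  ((ana_sc _).continuousAt.tendsto.mono_right (congrArg 𝓝 (sc_zero (x, ξ))).le).eventually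
    (eventually_nhdsWithin_iff.1 h.pq)

theorem ps_mem [CompleteSpace E] : ∀ᶠ b in 𝓝 (((x, ξ), 0) : (W × (ι → ℂ)) × ℂ),
    b ∈ BM M → ((q (sc b), b.1.2), b.2) ∈ Bs univ (fun j z => (p z).2 j) :=
  ev_closure ((h.an_ps ξ).eventually_analyticAt.mono fun _ b => b.continuousAt)
    ((h.ev_pq ξ).mono fun _ k1 k2 => ⟨trivial, k2.1, fun j =>
      (congrArg (fun z : W × (ι → ℂ) => z.2 j) (k1 k2.2)).symm⟩)

theorem an_df : AnalyticAt ℂ
    (fun b : (W × (ι → ℂ)) × ℂ => (p (q (sc b))).1 - b.1.1) ((x, ξ), 0) :=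
  ((h.an_q (h.an_p analyticAt_fst)).comp_of_eq (ana_sc _) (sc_zero _)).fun_sub
    (analyticAt_fst.comp analyticAt_fst)

theorem th_ps [CompleteSpace W] : ∀ᶠ b in 𝓝 (((x, ξ), 0) : (W × (ι → ℂ)) × ℂ),
    b ∈ BM M → (p (q (sc b))).1 - b.1.1 = 0 :=
  (ev_closure (A' := {0}) (A := {b | b.2 ≠ 0 ∧ sc b ∈ M})
    ((h.an_df ξ).eventually_analyticAt.mono fun _ b => b.continuousAt)
    ((h.ev_pq ξ).mono fun b k1 k2 => by
      rw [mem_singleton_iff, k1 k2.2]; exact sub_self _)).mono fun _ k1 k2 => by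
        simpa using k1 k2

variable [FiniteDimensional ℂ W] [FiniteDimensional ℂ E]

theorem an_BM : H3.An (BM M) ((x, ξ), 0) := by
  have := FiniteDimensional.complete ℂ W
  have := FiniteDimensional.complete ℂ E
  have e0 : ((q (sc ((x, ξ), 0)), ξ), (0 : ℂ)) = ((e, ξ), 0) := by rw [sc_zero, h.q0]
  refine ((H3.an_zero (h.an_df ξ)).inter (H3.An.preimage (h.an_ps ξ)
    (e0 ▸ an_Bs (w := ((e, ξ), 0)) h.an_s univ_mem))).congr ?_
  filter_upwards [h.ps_mem ξ, h.th_ps ξ, ((h.an_ps ξ).continuousAt.tendsto.mono_right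
    (congrArg 𝓝 e0).le).eventually (h.th_mem ξ)] with b k1 k2 k3
  refine ⟨fun k4 => ?_, fun k4 => ⟨k2 k4, k1 k4⟩⟩
  have k5 := k3 k4.2
  rwa [sub_eq_zero.1 (show _ - _ = 0 from k4.1)] at k5

omit [FiniteDimensional ℂ W] [FiniteDimensional ℂ E] in
theorem form {n : ℕ} {Q : E → (ι → ℂ) [×n]→L[ℂ] ℂ} (hQ : AnalyticAt ℂ Q e) :
    Form n ((x, 0) : W × (ι → ℂ)) fun z => Q (q z.1) fun _ => z.2 :=
  let ⟨_, a⟩ := rep_of_form hQ
  ⟨(a.evm 0).1.comp_of_eq (f := fun z : (W × (ι → ℂ)) × (ι → ℂ) => (q z.1, z.2))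
    ((h.qa.comp_of_eq analyticAt_fst rfl).prod analyticAt_snd) (by rw [h.q0]), fun z u t => by
      simpa using (Q (q z)).map_smul_univ (fun _ => t) fun _ => u⟩

/-- **The functions vanishing on the deformation restrict to the initial forms.** -/
theorem map_vi : (vi ((x, ξ), (0 : ℂ)) (BM M)).map (rho (x, ξ)) =
    Ideal.span (gm (x, ξ) '' Ini M (x, ξ)) := by
  have := FiniteDimensional.complete ℂ W
  refine le_antisymm (Ideal.map_le_iff_le_comap.2 fun a ha => ?_) (Ideal.span_le.2 ?_)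
  swap
  · rintro _ ⟨f, hf, rfl⟩
    obtain ⟨G, a, b, c⟩ := ini_van hf
    rw [← gm_congr (a.comp_of_eq (ana_inc _) rfl) c]
    exact rho_gm a ▸ Ideal.mem_map_of_mem _ ((mem_vi a).2 b)
  obtain ⟨G, hG, rfl⟩ := gm_surj ((x, ξ), (0 : ℂ)) a
  obtain rfl := h.q0
  have e0 : (((p (q (x, 0))).1, ξ), (0 : ℂ)) = ((x, ξ), 0) := by rw [h.p0]
  have hi : AnalyticAt ℂ (fun z : W × (ι → ℂ) => (z.1, (0 : ι → ℂ))) (x, ξ) :=
    analyticAt_fst.prod analyticAt_const
  have hχ : AnalyticAt ℂ (fun z : W × (ι → ℂ) => (q (z.1, 0), z.2)) (x, ξ) :=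
    (h.qa.comp_of_eq hi rfl).prod analyticAt_snd
  have h1 := hG.comp_of_eq (h.an_th ξ) e0
  have h2 := h1.comp_of_eq (ana_inc _) rfl
  have h3 := (mem_Jan (s := fun j z => (p z).2 j) h.an_s univ_mem h2).2 ⟨_, h1, by
    filter_upwards [h.th_mem ξ, ((h.an_th ξ).continuousAt.tendsto.mono_right
      (congrArg 𝓝 e0).le).eventually ((mem_vi hG).1 ha)] with b k1 k2 k3 using k2 (k1 k3),
    .of_forall fun _ => rfl⟩
  have h4 : (Jan (q (x, 0)) (fun j z => (p z).2 j) ξ).map (pl hχ) ≤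
      Ideal.span (gm (x, ξ) '' Ini M (x, ξ)) := by
    rw [Jan, map_jal (s := fun z => (p z).2) h.an_s, Ideal.map_span]
    refine Ideal.span_mono ?_
    rintro _ ⟨_, ⟨n, Q, Q', a, b, c, rfl⟩, rfl⟩
    obtain ⟨P, hP⟩ := rep_of_form a
    refine ⟨_, ⟨n, _, _, h.form a, h.form b, h.ev.2 ?_, .rfl⟩, (pl_gm hχ (hP.evm ξ).1).symm⟩
    filter_upwards [c, h.qp] with z k1 k2
    rwa [k2]
  have h5 := h4 (Ideal.mem_map_of_mem _ h3)
  rw [pl_gm hχ h2] at h5
  have hπ : AnalyticAt ℂ (fun z => (p (q z)).1) (x, 0) := h.an_q (h.an_p analyticAt_fst)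
  obtain ⟨k, hk, e1⟩ := hadamard (w := (x, ξ))
    (f := fun v : W × W × (ι → ℂ) => G (((p (q (v.2.1, 0))).1 + v.1, v.2.2), 0))
    (hG.comp_of_eq ((((hπ.comp_of_eq (hi.comp_of_eq analyticAt_snd rfl) rfl).fun_add
      analyticAt_fst).prod (analyticAt_snd.comp analyticAt_snd)).prod analyticAt_const)
      (by simp only [add_zero, e0]))
  let B := Module.finBasis ℂ W
  have hd : ∀ i, AnalyticAt ℂ (fun z : W × (ι → ℂ) => B.coord i (z.1 - (p (q z)).1)) (x, 0) :=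
    fun i => ((B.coord i).toContinuousLinearMap.analyticAt _).comp (analyticAt_fst.fun_sub hπ)
  have hc : ∀ i, AnalyticAt ℂ
      (fun z : W × (ι → ℂ) => k (z.1 - (p (q (z.1, 0))).1, z) (B i)) (x, ξ) := fun i =>
    ((ContinuousLinearMap.apply ℂ ℂ (B i)).analyticAt _).comp (hk.comp_of_eq
      ((analyticAt_fst.fun_sub (hπ.comp_of_eq hi rfl)).prod analyticAt_id) (by simp [h.p0]))
  have hd' : ∀ i, AnalyticAt ℂ
      (fun z : W × (ι → ℂ) => B.coord i (z.1 - (p (q (z.1, 0))).1)) (x, ξ) :=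
    fun i => (hd i).comp_of_eq hi rfl
  have h6 := add_mem h5 (sum_mem (S := Ideal.span (gm (x, ξ) '' Ini M (x, ξ))) (t := Finset.univ)
    fun i _ => Ideal.mul_mem_left _ (gm (x, ξ) fun z => k (z.1 - (p (q (z.1, 0))).1, z) (B i))
      (Ideal.subset_span ⟨fun z => B.coord i (z.1 - (p (q (z.1, 0))).1), ini_of_van (y := (x, ξ))
        (hd i) (h.pq.mono fun z a => by rw [a, sub_self, map_zero]) .rfl, rfl⟩))
  rw [Finset.sum_congr rfl fun i _ => (gm_mul (hc i) (hd' i)).symm,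
    ← gm_sum _ fun i => (hc i).fun_mul (hd' i)] at h6
  rw [Ideal.mem_comap, rho_gm hG]
  refine (congrArg (· ∈ _) ((gm_add (h2.comp_of_eq hχ rfl) (Finset.analyticAt_fun_sum _
    fun i _ => (hc i).fun_mul (hd' i))).symm.trans (congrArg (gm (x, ξ)) (funext fun z => ?_)))).mp h6
  have k1 := e1 (z.1 - (p (q (z.1, 0))).1, z)
  simp only [add_sub_cancel, add_zero] at k1
  rw [k1]
  refine congrArg₂ _ rfl ?_
  generalize k (z.1 - (p (q (z.1, 0))).1, z) = l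
  generalize z.1 - (p (q (z.1, 0))).1 = v
  conv_rhs => rw [← B.sum_repr v, map_sum]
  exact Finset.sum_congr rfl fun i _ => by rw [map_smul, smul_eq_mul, mul_comm]; rfl

end Par

/-- functions analytic at `y` -/
abbrev Fa {X : Type} [NormedAddCommGroup X] [NormedSpace ℂ X] (y : X) : Subring (X → ℂ) :=
  Subring.closure {f | AnalyticAt ℂ f y}

section fa

variable {X : Type} [NormedAddCommGroup X] [NormedSpace ℂ X] {y : X}

theorem fa_ana (f : Fa y) : AnalyticAt ℂ f.1 y :=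
  Subring.closure_induction (p := fun f _ => AnalyticAt ℂ f y) (fun _ a => a) analyticAt_const
    analyticAt_const (fun _ _ _ _ a b => a.add b) (fun _ _ a => a.neg)
    (fun _ _ _ _ a b => a.mul b) f.2

/-- the germ of a function -/
def gmR (y : X) : Fa y →+* O X where
  toFun f := gm y f.1
  map_one' := gm_one y
  map_mul' f g := gm_mul (fa_ana f) (fa_ana g)
  map_zero' := gm_zero y
  map_add' f g := gm_add (fa_ana f) (fa_ana g)

theorem gmR_surj (y : X) : Surjective (gmR y) := fun a =>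
  let ⟨f, b, c⟩ := gm_surj y a
  ⟨⟨f, Subring.subset_closure b⟩, c⟩

end fa

theorem exists_quot {W E : Type} [NormedAddCommGroup W] [NormedSpace ℂ W] [NormedAddCommGroup E]
    [NormedSpace ℂ E] (M : Set (W × E)) (y : W × E) :
    ∃ π : O (W × E) →+* Fa y ⧸ Ideal.span {f : Fa y | f.1 ∈ Ini M y}, Surjective π ∧
      RingHom.ker π = Ideal.span (gm y '' Ini M y) := by
  have h1 : RingHom.ker (gmR y) ≤
      RingHom.ker (Ideal.Quotient.mk (Ideal.span {f : Fa y | f.1 ∈ Ini M y})) := fun f hf => by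
    rw [Ideal.mk_ker]
    exact Ideal.subset_span (ini_of_van (g := fun _ => 0) analyticAt_const
      (.of_forall fun _ => rfl) ((gm_eq_zero (fa_ana f)).1 hf))
  have h2 := (gmR y).liftOfSurjective_comp (gmR_surj y) ⟨_, h1⟩
  refine ⟨(gmR y).liftOfSurjective (gmR_surj y) ⟨_, h1⟩,
    .of_comp (g := gmR y) (by rw [← RingHom.coe_comp, h2]; exact Ideal.Quotient.mk_surjective), ?_⟩
  rw [← Ideal.map_comap_of_surjective _ (gmR_surj y) (RingHom.ker _), RingHom.comap_ker, h2,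
    Ideal.mk_ker, Ideal.map_span]
  congr 1
  ext a
  exact ⟨fun ⟨f, b, c⟩ => ⟨f.1, b, c⟩,
    fun ⟨f, b, c⟩ => ⟨⟨f, Subring.subset_closure (ini_ana b)⟩, b, c⟩⟩

variable [FiniteDimensional ℂ W] {n : ℕ} (hM : MfdAt M n (x, 0)) (ξ : ι → ℂ)
include hM

theorem map_vi_BM : (vi ((x, ξ), (0 : ℂ)) (BM M)).map (rho (x, ξ)) =
    Ideal.span (gm (x, ξ) '' Ini M (x, ξ)) :=
  let ⟨_, _, h⟩ := par_of_mfd hM
  h.map_vi ξ

/-- **D1**: the local ring of the cone is the local ring of the special fibre. -/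
theorem rho_ex : ∃ ρ : O ((W × (ι → ℂ)) × ℂ) →+*
    Fa (x, ξ) ⧸ Ideal.span {f : Fa (x, ξ) | f.1 ∈ Ini M (x, ξ)}, Surjective ρ ∧
      RingHom.ker ρ = vi ((x, ξ), 0) (BM M) ⊔ Ideal.span {gm ((x, ξ), (0 : ℂ)) Prod.snd} := by
  obtain ⟨π, h1, h2⟩ := exists_quot M (x, ξ)
  refine ⟨π.comp (rho (x, ξ) : O _ →+* O _), h1.comp (rho_surj _), ?_⟩
  rw [← ker_rho, ← RingHom.comap_ker, h2, ← map_vi_BM hM ξ]
  exact Ideal.comap_map_of_surjective _ (rho_surj _) _

/-- **D2**: the points of the cone. -/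
theorem cone_iff : (∀ f ∈ Ini M (x, ξ), f (x, ξ) = 0) ↔ ((x, ξ), (0 : ℂ)) ∈ BM M := by
  refine ⟨fun h => by_contra fun k => ?_, fun h f hf => ?_⟩
  · have h1 : Ideal.span (gm (x, ξ) '' Ini M (x, ξ)) ≤ RingHom.ker (ev0 (W × (ι → ℂ))) :=
      Ideal.span_le.2 (by
        rintro _ ⟨f, a, rfl⟩
        exact (ev0_gm (ini_ana a)).trans (h f a))
    have h2 := Ideal.mem_map_of_mem (rho (x, ξ)) ((mem_vi (f := fun _ => 1) analyticAt_const).2
      ((isClosed_closure.isOpen_compl.eventually_mem k).mono fun _ l1 l2 => (l1 l2).elim))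
    rw [gm_one, map_one] at h2
    exact one_ne_zero ((map_one _).symm.trans (h1 (map_vi_BM hM ξ ▸ h2)))
  · obtain ⟨G, -, b, c⟩ := ini_van hf
    exact c.self_of_nhds.symm.trans (b.self_of_nhds h)

/-- **D3**: the deformation is analytic. -/
theorem an_BM : H3.An (BM M) ((x, ξ), 0) :=
  let ⟨_, _, h⟩ := par_of_mfd hM
  h.an_BM ξ

/-- the multiplicity clause of the text, unfolded -/
theorem mul_iff {m : ℂ} : Mul M (x, ξ) m ↔
    Mlt (Fa (x, ξ) ⧸ Ideal.span {f : Fa (x, ξ) | f.1 ∈ Ini M (x, ξ)}) m := Iff.rfl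

end Vale.Agent.P269L.D
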