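import Vale.Agent.P269L.D.Main

/-!
# The deformation to the normal cone away from the special fibre
-/

open Filter Topology Set Function
open Vale.Agent.P269.Holo

set_option linter.unusedSectionVars false

noncomputable section

namespace Vale.Agent.P269L.D

theorem mfd_closed {A : Type} [NormedAddCommGroup A] [NormedSpace ℂ A] [CompleteSpace A]
    {S : Set A} {n : ℕ} {y : A} (h : MfdAt S n y) : ∀ᶠ a in 𝓝 y, a ∈ closure S → a ∈ S := by
  obtain ⟨p, q, h⟩ := par_of_mfd h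
  filter_upwards [h.tq.eventually h.ev_mem, ev_closure (A' := {0}) (A := S)
    (((h.an_q h.pa).fun_sub analyticAt_id).eventually_analyticAt.mono fun _ b => b.continuousAt)
    ((eventually_nhdsWithin_iff.1 h.pq).mono fun _ a b => sub_eq_zero.2 (a b))] with a k1 k2 k3
  have k4 := k2 k3
  rw [closure_singleton, mem_singleton_iff, sub_eq_zero] at k4
  exact (show p (q a) = a from k4) ▸ k1

variable {W E : Type} [NormedAddCommGroup W] [NormedSpace ℂ W] [NormedAddCommGroup E]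
  [NormedSpace ℂ E] {M : Set (W × E)} {n : ℕ}

theorem cont_sc : Continuous (sc : (W × E) × ℂ → W × E) :=
  continuous_iff_continuousAt.2 fun b => (ana_sc b).continuousAt

theorem sc_mem {b : (W × E) × ℂ} (h : b ∈ BM M) : sc b ∈ closure M :=
  map_mem_closure cont_sc h fun _ k => k.2

theorem mem_BM_of {b : (W × E) × ℂ} (h : b.2 ≠ 0) (k : sc b ∈ M) : b ∈ BM M :=
  subset_closure ⟨h, k⟩

variable [CompleteSpace W] [CompleteSpace E]

theorem ev_BM {b : (W × E) × ℂ} (h : MfdAt M n (sc b)) :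
    ∀ᶠ z in 𝓝 b, (z ∈ BM M → sc z ∈ M) ∧ (z.2 ≠ 0 → (z ∈ BM M ↔ sc z ∈ M)) :=
  (cont_sc.continuousAt.eventually (mfd_closed h)).mono fun _ k =>
    ⟨fun a => k (sc_mem a), fun a => ⟨fun c => k (sc_mem c), mem_BM_of a⟩⟩

theorem mfd_BM_of {b : (W × E) × ℂ} (h : MfdAt M n (sc b)) (hb : b.2 ≠ 0) :
    MfdAt (BM M) (n + 1) b := by
  have e : ∀ z : (W × E) × ℂ, z.2 ≠ 0 → (((sc z).1, z.2⁻¹ • (sc z).2), z.2) = z := fun z k => by
    simp [sc, k]
  have e' : ∀ z : (W × E) × ℂ, z.2 ≠ 0 → sc ((z.1.1, z.2⁻¹ • z.1.2), z.2) = z.1 := fun z k => by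
    simp [sc, k]
  have h1 := (h.prod (MfdAt.univ b.2)).iso (S' := BM M)
    (F := fun z => ((z.1.1, z.2⁻¹ • z.1.2), z.2)) (G := fun z => (sc z, z.2))
    (((analyticAt_fst.comp analyticAt_fst).prod ((analyticAt_snd.inv (by exact hb)).smul
      (analyticAt_snd.comp analyticAt_fst))).prod analyticAt_snd)
    ((ana_sc _).prod analyticAt_snd)
    ((continuous_snd.continuousAt.eventually_ne (x := (sc b, b.2)) hb).mono fun z k l =>
      ⟨mem_BM_of k ((e' z k).symm ▸ l.1), Prod.ext (e' z k) rfl⟩)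
    (by
      rw [show _ = b from e b hb]
      filter_upwards [ev_BM h, continuous_snd.continuousAt.eventually_ne hb] with z k l m
        using ⟨⟨k.1 m, trivial⟩, e z l⟩)
  rwa [Module.finrank_self, show _ = b from e b hb] at h1

variable {x : W} (hM : MfdAt M n (x, 0)) (ξ : E)
include hM

theorem mem_BM : ∀ᶠ z in 𝓝 (((x, ξ), 0) : (W × E) × ℂ),
    (z ∈ BM M → sc z ∈ M) ∧ (z.2 ≠ 0 → (z ∈ BM M ↔ sc z ∈ M)) :=
  ev_BM (by rwa [sc_zero])

theorem mfd_BM : ∀ᶠ z in 𝓝 (((x, ξ), 0) : (W × E) × ℂ),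
    z ∈ BM M → z.2 ≠ 0 → MfdAt (BM M) (n + 1) z := by
  filter_upwards [mem_BM hM ξ, (cont_sc.continuousAt.tendsto.mono_right
    (congrArg 𝓝 (sc_zero (x, ξ))).le).eventually hM.eventually] with z k l a b
    using mfd_BM_of (l (k.1 a)) b

end Vale.Agent.P269L.D
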