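import Vale.Agent.P277Z.Oka.Defs
import Vale.Agent.P269.Holo.Set

/-!
# Germs of holomorphic functions on a submanifold, in a parametrisation
-/

open Filter Topology Set Function
open Vale.Agent.P298.H941 Vale.Agent.P277Z.Oka Vale.Agent.P269.Holo

noncomputable section

namespace Vale.Agent.P269L.D

variable {A E F : Type} [NormedAddCommGroup A] [NormedSpace ℂ A] [NormedAddCommGroup E]
  [NormedSpace ℂ E] [NormedAddCommGroup F] [NormedSpace ℂ F]

/-- `p` parametrises `S` near `y = p e`, with the analytic retraction `q` -/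
structure Par (S : Set A) (y : A) (p : E → A) (q : A → E) (e : E) : Prop where
  pa : AnalyticAt ℂ p e
  p0 : p e = y
  qa : AnalyticAt ℂ q y
  qp : ∀ᶠ z in 𝓝 e, q (p z) = z
  mp : map p (𝓝 e) = 𝓝[S] y

theorem par_of_param {S : Set A} {ψ : E → S} {e : E} (h : IsParam Subtype.val ψ e) :
    ∃ q, Par S (ψ e) (fun z => ψ z) q e := by
  obtain ⟨h1, h2, q, h3, h4⟩ := h
  refine ⟨q, h2, rfl, h3, h4, ?_⟩
  rw [nhdsWithin_eq_map_subtype_coe (ψ e).2, ← h1.map_nhds, map_map]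
  rfl

theorem par_of_mfd {S : Set A} {n : ℕ} {y : A} (h : MfdAt S n y) :
    ∃ (p : (Fin n → ℂ) → A) (q : _), Par S y p q 0 := by
  obtain ⟨hy, ψ, h1, h2⟩ := h
  obtain ⟨q, hq⟩ := par_of_param h1
  exact ⟨_, q, by rwa [h2] at hq⟩

namespace Par

variable {S : Set A} {y : A} {p : E → A} {q : A → E} {e : E} (h : Par S y p q e)
include h

theorem ev {P : A → Prop} : (∀ᶠ a in 𝓝[S] y, P a) ↔ ∀ᶠ z in 𝓝 e, P (p z) := by
  rw [← h.mp, eventually_map]

theorem ev_mem : ∀ᶠ z in 𝓝 e, p z ∈ S := h.ev.1 self_mem_nhdsWithin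

theorem mem : y ∈ S := h.p0 ▸ h.ev_mem.self_of_nhds

theorem q0 : q y = e := h.p0 ▸ h.qp.self_of_nhds

theorem pq : ∀ᶠ a in 𝓝[S] y, p (q a) = a := h.ev.2 (h.qp.mono fun _ b => congrArg p b)

theorem tp : Tendsto p (𝓝 e) (𝓝[S] y) := h.mp.le

theorem tq : Tendsto q (𝓝 y) (𝓝 e) := h.q0 ▸ h.qa.continuousAt.tendsto

theorem ev' {P : E → Prop} : (∀ᶠ z in 𝓝 e, P z) ↔ ∀ᶠ a in 𝓝[S] y, P (q a) :=
  (h.ev.trans (eventually_congr (h.qp.mono fun _ b => by rw [b]))).symm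

theorem an_p {B : Type*} [NormedAddCommGroup B] [NormedSpace ℂ B] {f : A → B}
    (hf : AnalyticAt ℂ f y) : AnalyticAt ℂ (fun z => f (p z)) e := hf.comp_of_eq h.pa h.p0

theorem an_q {B : Type*} [NormedAddCommGroup B] [NormedSpace ℂ B] {f : E → B}
    (hf : AnalyticAt ℂ f e) : AnalyticAt ℂ (fun a => f (q a)) y := hf.comp_of_eq h.qa h.q0

theorem prod (ξ : F) :
    Par (S ×ˢ univ) (y, ξ) (fun z : E × F => (p z.1, z.2)) (fun a => (q a.1, a.2)) (e, ξ) where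
  pa := (h.pa.comp_of_eq analyticAt_fst rfl).prod analyticAt_snd
  p0 := congrArg (·, ξ) h.p0
  qa := (h.qa.comp_of_eq analyticAt_fst rfl).prod analyticAt_snd
  qp := ((continuous_fst.tendsto (e, ξ)).eventually h.qp).mono fun _ b => Prod.ext b rfl
  mp := by
    rw [nhdsWithin_prod_eq, nhdsWithin_univ, ← h.mp, nhds_prod_eq]
    exact (prod_map_left p _ _).symm

theorem congr {S' : Set A} (e' : 𝓝[S] y = 𝓝[S'] y) : Par S' y p q e :=
  ⟨h.pa, h.p0, h.qa, h.qp, h.mp.trans e'⟩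

/-- a germ in the parameter space as a germ along `S` -/
def psi : O E →+* Germ (𝓝[S] y) ℂ :=
  Ideal.Quotient.lift (nu E)
    ((Germ.coeRingHom _).comp
      { toFun := fun f a => (f : E → ℂ) (q a - e)
        map_one' := rfl
        map_mul' := fun _ _ => rfl
        map_zero' := rfl
        map_add' := fun _ _ => rfl })
    fun _ ha => Germ.coe_eq.2 (h.ev'.1 ((tendsto_tr' e).eventually ha))

theorem psi_gm {f : E → ℂ} (hf : AnalyticAt ℂ f e) :
    h.psi (gm e f) = (↑fun a => f (q a) : Germ (𝓝[S] y) ℂ) := by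
  rw [gm_eq hf]
  exact Germ.coe_eq.2 (.of_forall fun a => congrArg f (add_sub_cancel _ _))

theorem psi_gm' {f : A → ℂ} (hf : AnalyticAt ℂ f y) :
    h.psi (gm e fun z => f (p z)) = (↑f : Germ (𝓝[S] y) ℂ) :=
  (h.psi_gm (h.an_p hf)).trans (Germ.coe_eq.2 (h.pq.mono fun _ b => congrArg f b))

theorem psi_inj : Injective h.psi := fun a b c => by
  obtain ⟨f, hf, rfl⟩ := gm_surj e a
  obtain ⟨g, hg, rfl⟩ := gm_surj e b
  rw [h.psi_gm hf, h.psi_gm hg, Germ.coe_eq] at c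
  exact (gm_eq_iff hf hg).2 (h.ev'.2 c)

end Par

/-- `R` is the ring of germs along `l` of functions analytic at `y` -/
structure IsRg (l : Filter A) (y : A) {R : Type*} [CommRing R] (c : R →+* Germ l ℂ) : Prop where
  inj : Injective c
  rg : ∀ g, g ∈ range c ↔ ∃ f : A → ℂ, AnalyticAt ℂ f y ∧ g = ↑f

/-- the germs along `l` of functions analytic at `y` -/
def anS (l : Filter A) (y : A) : Subring (Germ l ℂ) where
  carrier := {g | ∃ f : A → ℂ, AnalyticAt ℂ f y ∧ g = ↑f}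
  mul_mem' := fun ⟨_, a, b⟩ ⟨_, c, d⟩ => ⟨_, a.mul c, by rw [b, d]; rfl⟩
  one_mem' := ⟨fun _ => 1, analyticAt_const, rfl⟩
  add_mem' := fun ⟨_, a, b⟩ ⟨_, c, d⟩ => ⟨_, a.add c, by rw [b, d]; rfl⟩
  zero_mem' := ⟨fun _ => 0, analyticAt_const, rfl⟩
  neg_mem' := fun ⟨_, a, b⟩ => ⟨_, a.neg, by rw [b]; rfl⟩

theorem isRg_closure (l : Filter A) (y : A) :
    IsRg l y (Subring.closure {g : Germ l ℂ | ∃ f : A → ℂ, AnalyticAt ℂ f y ∧ g = ↑f}).subtype :=
  ⟨Subtype.val_injective, fun g => by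
    rw [Subring.coe_subtype, Subtype.range_coe]
    exact (congrArg (g ∈ ·) (Subring.closure_eq (anS l y))).to_iff⟩

theorem IsRg.ex {l : Filter A} {y : A} {R : Type*} [CommRing R] {c : R →+* Germ l ℂ}
    (hc : IsRg l y c) (r : R) : ∃ f : A → ℂ, AnalyticAt ℂ f y ∧ c r = ↑f := (hc.rg _).1 ⟨r, rfl⟩

theorem IsRg.ex' {l : Filter A} {y : A} {R : Type*} [CommRing R] {c : R →+* Germ l ℂ}
    (hc : IsRg l y c) {f : A → ℂ} (hf : AnalyticAt ℂ f y) : ∃ r, c r = ↑f :=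
  (hc.rg _).2 ⟨f, hf, rfl⟩

/-- the ring of germs along `S` is the ring of germs in the parameter space -/
theorem Par.iso {S : Set A} {y : A} {p : E → A} {q : A → E} {e : E} (h : Par S y p q e)
    {R : Type*} [CommRing R] {c : R →+* Germ (𝓝[S] y) ℂ} (hc : IsRg _ y c) :
    ∃ Φ : R ≃+* O E, (∀ r, h.psi (Φ r) = c r) ∧
      ∀ r (f : A → ℂ), AnalyticAt ℂ f y → (c r = ↑f ↔ Φ r = gm e fun z => f (p z)) := by
  have e1 : c.range = h.psi.range := by
    ext g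
    refine (hc.rg g).trans ⟨fun ⟨f, a, b⟩ => ⟨_, (h.psi_gm' a).trans b.symm⟩, fun ⟨a, b⟩ => ?_⟩
    obtain ⟨f, hf, rfl⟩ := gm_surj e a
    exact ⟨_, h.an_q hf, b.symm.trans (h.psi_gm hf)⟩
  let u := RingEquiv.ofBijective c.rangeRestrict
    ⟨fun a b d => hc.inj (congrArg Subtype.val d), c.rangeRestrict_surjective⟩
  let w := RingEquiv.ofBijective h.psi.rangeRestrict
    ⟨fun a b d => h.psi_inj (congrArg Subtype.val d), h.psi.rangeRestrict_surjective⟩
  have k : ∀ r, h.psi ((u.trans ((RingEquiv.subringCongr e1).trans w.symm)) r) = c r := fun r =>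
    congrArg Subtype.val (w.apply_symm_apply (RingEquiv.subringCongr e1 (u r)))
  exact ⟨_, k, fun r f hf => by rw [← k, ← h.psi_gm' hf, h.psi_inj.eq_iff]⟩

end Vale.Agent.P269L.D
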