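import Vale.Agent.P269L.D.Par
import Vale.Agent.P269L.Rf.Fl
import Vale.Agent.P269L.R.Alg

/-!
# Homogeneous polynomials with holomorphic coefficients and holomorphic multilinear forms
-/

open Filter Topology Set Function MvPolynomial
open Vale.Agent.P298.H941 Vale.Agent.P277Z.Oka

noncomputable section

namespace Vale.Agent.P269L.D

theorem hom_iff {R ι : Type*} [CommRing R] [Fintype ι] {n : ℕ} {P : MvPolynomial ι R} :
    P.IsHomogeneous n ↔ ∃ a : (Fin n → ι) → R, P = ∑ k, C (a k) * ∏ i, X (k i) := by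
  refine ⟨fun h => ?_, ?_⟩
  · rw [← mem_homogeneousSubmodule, ← homogeneousSubmodule_one_pow,
      homogeneousSubmodule_one_eq_span_X, Submodule.span_pow] at h
    have h2 : P ∈ Submodule.span R (range fun k : Fin n → ι => ∏ i, (X (k i) : MvPolynomial ι R)) :=
      Submodule.span_mono (fun a b => by
        obtain ⟨f, c, rfl⟩ := Set.mem_pow_iff_prod.1 b
        choose k hk using c
        exact ⟨k, Finset.prod_congr rfl fun i _ => hk i⟩) h
    obtain ⟨a, e⟩ := (Submodule.mem_span_range_iff_exists_fun R).1 h2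
    exact ⟨a, by simp only [← e, smul_eq_C_mul]⟩
  · rintro ⟨a, rfl⟩
    refine .sum _ _ _ fun k _ => .C_mul ?_ _
    simpa using IsHomogeneous.prod Finset.univ (fun i => (X (k i) : MvPolynomial ι R)) (fun _ => 1)
      fun i _ => isHomogeneous_X R _

variable {E E' ι : Type} [NormedAddCommGroup E] [NormedSpace ℂ E] [NormedAddCommGroup E']
  [NormedSpace ℂ E'] [Fintype ι] {n : ℕ} {e : E}

theorem coef_of_form {Q : E → (ι → ℂ) [×n]→L[ℂ] ℂ} (h : AnalyticAt ℂ Q e) :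
    ∃ f : (Fin n → ι) → E → ℂ, (∀ k, AnalyticAt ℂ (f k) e) ∧
      ∀ z v, Q z (fun _ => v) = ∑ k, f k z * ∏ i, v (k i) := by
  classical
  refine ⟨fun k z => Q z fun i => Pi.single (k i) 1, fun k => ((ContinuousMultilinearMap.apply ℂ
    (fun _ : Fin n => ι → ℂ) ℂ fun i => Pi.single (k i) 1).analyticAt _).comp h, fun z v => ?_⟩
  conv_lhs => rw [pi_eq_sum_univ' v]
  rw [(Q z).map_sum]
  refine Finset.sum_congr rfl fun k _ => ?_
  rw [(Q z).map_smul_univ, smul_eq_mul, mul_comm]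

theorem form_of_coef {f : (Fin n → ι) → E → ℂ} (h : ∀ k, AnalyticAt ℂ (f k) e) :
    ∃ Q : E → (ι → ℂ) [×n]→L[ℂ] ℂ, AnalyticAt ℂ Q e ∧
      ∀ z v, Q z (fun _ => v) = ∑ k, f k z * ∏ i, v (k i) :=
  ⟨fun z => ∑ k, f k z • (ContinuousMultilinearMap.mkPiAlgebra ℂ (Fin n) ℂ).compContinuousLinearMap
    fun i => .proj (k i), Finset.analyticAt_fun_sum _ fun k _ => (h k).fun_smul analyticAt_const,
    fun z v => by simp⟩

/-- `P` is the polynomial of the family of forms `Q` -/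
def Rep (e : E) (Q : E → (ι → ℂ) [×n]→L[ℂ] ℂ) (P : MvPolynomial ι (O E)) : Prop :=
  ∃ f : (Fin n → ι) → E → ℂ, (∀ k, AnalyticAt ℂ (f k) e) ∧
    (∀ z v, Q z (fun _ => v) = ∑ k, f k z * ∏ i, v (k i)) ∧
    P = ∑ k, C (gm e (f k)) * ∏ i, X (k i)

theorem rep_of_form {Q : E → (ι → ℂ) [×n]→L[ℂ] ℂ} (h : AnalyticAt ℂ Q e) : ∃ P, Rep e Q P :=
  let ⟨f, a, b⟩ := coef_of_form h
  ⟨_, f, a, b, rfl⟩

theorem rep_of_hom (e : E) {P : MvPolynomial ι (O E)} (h : P.IsHomogeneous n) :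
    ∃ Q : E → (ι → ℂ) [×n]→L[ℂ] ℂ, AnalyticAt ℂ Q e ∧ Rep e Q P := by
  obtain ⟨a, rfl⟩ := hom_iff.1 h
  choose f hf e1 using fun k => gm_surj e (a k)
  obtain ⟨Q, b, c⟩ := form_of_coef hf
  exact ⟨Q, b, f, hf, c, by simp only [e1]⟩

namespace Rep

variable {Q : E → (ι → ℂ) [×n]→L[ℂ] ℂ} {P : MvPolynomial ι (O E)} (h : Rep e Q P)
include h

theorem hom : P.IsHomogeneous n :=
  let ⟨_, _, _, c⟩ := h
  hom_iff.2 ⟨_, c⟩

theorem map {e' : E'} {g : E' → E} {v : E' → ι → ℂ} (hg : AnalyticAt ℂ g e') (g0 : g e' = e)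
    (hv : ∀ j, AnalyticAt ℂ (v · j) e') (φ : MvPolynomial ι (O E) →+* O E')
    (hC : ∀ a, AnalyticAt ℂ a e → φ (C (gm e a)) = gm e' fun z => a (g z))
    (hX : ∀ j, φ (X j) = gm e' (v · j)) :
    AnalyticAt ℂ (fun z => Q (g z) fun _ => v z) e' ∧
      φ P = gm e' fun z => Q (g z) fun _ => v z := by
  obtain ⟨f, a, b, rfl⟩ := h
  have h1 := fun k : Fin n → ι => Finset.analyticAt_fun_prod Finset.univ fun i _ => hv (k i)
  have h2 := fun k => ((a k).comp_of_eq hg g0).fun_mul (h1 k)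
  simp only [b]
  refine ⟨Finset.analyticAt_fun_sum _ fun k _ => h2 k, ?_⟩
  rw [map_sum]
  refine .trans (Finset.sum_congr rfl fun k _ => ?_) (gm_sum _ h2).symm
  rw [map_mul, map_prod, hC _ (a k), gm_mul ((a k).comp_of_eq hg g0) (h1 k),
    gm_prod _ fun i => hv (k i)]
  simp only [hX]
  rfl

theorem evm (ξ : ι → ℂ) : AnalyticAt ℂ (fun z : E × (ι → ℂ) => Q z.1 fun _ => z.2) (e, ξ) ∧
    Rf.evm E ξ P = gm (e, ξ) fun z => Q z.1 fun _ => z.2 :=
  h.map analyticAt_fst rfl (fun j => Rf.ana_co E j _) _ (fun _ a => (Rf.gm_fst' ξ a).symm)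
    fun j => (Rf.gm_co e ξ j).symm

theorem eval {s : E → ι → ℂ} (hs : ∀ j, AnalyticAt ℂ (s · j) e) :
    AnalyticAt ℂ (fun z => Q z fun _ => s z) e ∧
      eval (fun j => gm e (s · j)) P = gm e fun z => Q z fun _ => s z :=
  h.map analyticAt_id rfl hs _ (fun _ _ => eval_C _) fun _ => eval_X _

end Rep

/-- the initial forms of the ideal of `s`, as holomorphic families of multilinear forms -/
theorem map_jal {s : E → ι → ℂ} (hs : ∀ j, AnalyticAt ℂ (s · j) e) (ξ : ι → ℂ) :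
    (R.Jal fun j => gm e (s · j)).map (Rf.evm E ξ) = Ideal.span {g | ∃ (n : ℕ)
      (Q : E → (ι → ℂ) [×n]→L[ℂ] ℂ) (Q' : E → (ι → ℂ) [×(n + 1)]→L[ℂ] ℂ), AnalyticAt ℂ Q e ∧
      AnalyticAt ℂ Q' e ∧ (∀ᶠ z in 𝓝 e, Q z (fun _ => s z) = Q' z fun _ => s z) ∧
      g = gm (e, ξ) fun z => Q z.1 fun _ => z.2} := by
  rw [R.Jal, Ideal.map_span]
  congr 1
  ext g
  constructor
  · rintro ⟨P, ⟨n, a, b⟩, rfl⟩
    obtain ⟨P', c, d⟩ := (Ideal.mem_span_pow_iff_exists_isHomogeneous _ _).1 b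
    obtain ⟨Q, h1, h2⟩ := rep_of_hom e a
    obtain ⟨Q', h3, h4⟩ := rep_of_hom e c
    rw [(h2.eval hs).2, (h4.eval hs).2, gm_eq_iff (h4.eval hs).1 (h2.eval hs).1] at d
    exact ⟨n, Q, Q', h1, h3, d.mono fun _ => .symm, (h2.evm ξ).2⟩
  · rintro ⟨n, Q, Q', a, b, c, rfl⟩
    obtain ⟨P, h2⟩ := rep_of_form a
    obtain ⟨P', h4⟩ := rep_of_form b
    refine ⟨P, ⟨n, h2.hom, (Ideal.mem_span_pow_iff_exists_isHomogeneous _ _).2 ⟨P', h4.hom, ?_⟩⟩,
      (h2.evm ξ).2⟩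
    rw [(h2.eval hs).2, (h4.eval hs).2, gm_eq_iff (h4.eval hs).1 (h2.eval hs).1]
    exact c.mono fun _ => .symm

end Vale.Agent.P269L.D
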